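import Mathlib

/-! Field theory core of the rank drop statement: relative algebraic closure `cl k s` of `k(s)`,
and the exchange lemma. -/

namespace Vale.Agent.P200.RD

open IntermediateField

variable {k Ω : Type*} [Field k] [Field Ω] [Algebra k Ω]

/-- the relative algebraic closure of `k(s)` in `Ω` -/
noncomputable def cl (k : Type*) {Ω : Type*} [Field k] [Field Ω] [Algebra k Ω] (s : Set Ω) :
    IntermediateField k Ω :=
  (algebraicClosure (IntermediateField.adjoin k s) Ω).restrictScalars k

theorem mem_cl {s : Set Ω} {a : Ω} :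
    a ∈ cl k s ↔ IsAlgebraic (IntermediateField.adjoin k s) a := by
  rw [cl, IntermediateField.mem_restrictScalars, mem_algebraicClosure_iff]

theorem coe_cl (s : Set Ω) :
    (cl k s : Set Ω) = (AlgebraicIndependent.matroid k Ω).closure s := by
  rw [AlgebraicIndependent.matroid_closure_eq]
  ext a
  simp only [SetLike.mem_coe, mem_cl, Subalgebra.mem_algebraicClosure]
  exact isAlgebraic_adjoin_iff

theorem subset_cl (s : Set Ω) : s ⊆ cl k s := by
  rw [coe_cl]
  exact (AlgebraicIndependent.matroid k Ω).subset_closure s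

theorem cl_mono {s t : Set Ω} (h : s ⊆ t) : cl k s ≤ cl k t := by
  have := (AlgebraicIndependent.matroid k Ω).closure_subset_closure h
  rw [← coe_cl, ← coe_cl] at this
  exact this

theorem cl_le {s t : Set Ω} (h : s ⊆ cl k t) : cl k s ≤ cl k t := by
  have := (AlgebraicIndependent.matroid k Ω).closure_subset_closure_of_subset_closure
    (X := s) (Y := t) (by rw [← coe_cl]; exact h)
  rw [← coe_cl, ← coe_cl] at this
  exact this

theorem mem_cl_of_pow {s : Set Ω} {a : Ω} {m : ℕ} (hm : m ≠ 0) (h : a ^ m ∈ cl k s) :
    a ∈ cl k s := by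
  rw [mem_cl] at h ⊢
  exact IsAlgebraic.of_pow (Nat.pos_of_ne_zero hm) h

/-- exchange lemma -/
theorem card_le {ι : Type*} [Fintype ι] {P : ι → Ω} (hP : AlgebraicIndependent k P)
    {U : Finset Ω} (h : ∀ i, P i ∈ cl k (U : Set Ω)) : Fintype.card ι ≤ U.card := by
  classical
  have hinj : Function.Injective P := hP.injective
  have hind : (AlgebraicIndependent.matroid k Ω).Indep (Set.range P) :=
    AlgebraicIndependent.matroid_indep_iff.mpr (AlgebraicIndependent.coe_range hP)
  have hsub : Set.range P ⊆ (AlgebraicIndependent.matroid k Ω).closure (U : Set Ω) := by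
    rw [← coe_cl]
    rintro _ ⟨i, rfl⟩
    exact h i
  have h1 := hind.encard_le_eRk_of_subset hsub
  rw [Matroid.eRk_closure_eq] at h1
  have h2 := h1.trans (Matroid.eRk_le_encard _ _)
  have h3 := (Function.Injective.encard_range hinj).trans h2
  rw [Set.encard_coe_eq_coe_finsetCard, ENat.card_eq_coe_fintype_card] at h3
  exact_mod_cast h3

end Vale.Agent.P200.RD
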