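import Mathlib
import Vale.Agent.P200.RD.Count

/-! `k[x_1..x_n]` is integral over `k[f]` if some power of every variable lies in the ideal `(f)`. -/

namespace Vale.Agent.P200.RD

open MvPolynomial

variable {k σ τ : Type*} [Field k] [Fintype σ] [Fintype τ]

omit [Fintype σ] in
theorem homogeneousComponent_mul_right {m e : ℕ} (g f : MvPolynomial σ k)
    (hf : f.IsHomogeneous e) :
    homogeneousComponent m (g * f) =
      if e ≤ m then homogeneousComponent (m - e) g * f else 0 := by
  conv_lhs => rw [← sum_homogeneousComponent g, Finset.sum_mul, map_sum]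
  have h1 : ∀ i, homogeneousComponent m (homogeneousComponent i g * f) =
      if i + e = m then homogeneousComponent i g * f else 0 := by
    intro i
    have : homogeneousComponent i g * f ∈ homogeneousSubmodule σ k (i + e) :=
      (homogeneousComponent_isHomogeneous i g).mul hf
    rw [homogeneousComponent_of_mem this]
    simp only [eq_comm]
  simp only [h1]
  split_ifs with he
  · by_cases hm : m - e ∈ Finset.range (g.totalDegree + 1)
    · rw [Finset.sum_eq_single_of_mem _ hm]
      · rw [if_pos (by omega)]
      · intro b _ hb
        rw [if_neg (by omega)]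
    · have : homogeneousComponent (m - e) g = 0 := by
        apply homogeneousComponent_eq_zero
        simp only [Finset.mem_range] at hm
        omega
      rw [this, zero_mul]
      apply Finset.sum_eq_zero
      intro b hb
      rw [if_neg]
      rintro rfl
      simp at hm hb
      omega
  · apply Finset.sum_eq_zero
    intro b _
    rw [if_neg (by omega)]

variable {d : τ → ℕ} {f : τ → MvPolynomial σ k}

theorem span_top (hf : ∀ i, (f i).IsHomogeneous (d i)) (hd : ∀ i, 0 < d i)
    (hN : ∀ a : σ, ∃ N, (X a : MvPolynomial σ k) ^ N ∈ Ideal.span (Set.range f)) :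
    Module.Finite (Algebra.adjoin k (Set.range f)) (MvPolynomial σ k) := by
  classical
  choose N hN using hN
  set D := Fintype.card σ * ∑ a, N a with hD
  set G : Set (MvPolynomial σ k) := (fun s : σ →₀ ℕ => monomial s (1 : k)) ''
    {s | s.degree ≤ D} with hG
  have hGfin : G.Finite := by
    apply Set.Finite.image
    exact Finsupp.finite_of_degree_le D
  set M := Submodule.span (Algebra.adjoin k (Set.range f)) G with hM
  have key : ∀ m : ℕ, ∀ p : MvPolynomial σ k, p.IsHomogeneous m → p ∈ M := by
    intro m
    induction m using Nat.strong_induction_on with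
    | _ m ih =>
      intro p hp
      have hmono : ∀ s : σ →₀ ℕ, s.degree = m → monomial s (1 : k) ∈ M := by
        intro s hs
        by_cases hsD : s.degree ≤ D
        · exact Submodule.subset_span ⟨s, hsD, rfl⟩
        · have hex : ∃ a, N a ≤ s a := by
            by_contra hcon
            push Not at hcon
            apply hsD
            rw [Finsupp.degree_eq_sum]
            calc ∑ a, s a ≤ ∑ a : σ, ∑ a, N a := by
                  apply Finset.sum_le_sum
                  intro a _
                  exact (hcon a).le.trans (Finset.single_le_sum (f := N) (fun _ _ => Nat.zero_le _)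
                    (Finset.mem_univ a))
              _ = D := by simp [hD]
          obtain ⟨a, ha⟩ := hex
          have hmem : monomial s (1 : k) ∈ Ideal.span (Set.range f) := by
            have : monomial s (1 : k) = monomial (s - Finsupp.single a (N a)) 1 * X a ^ N a := by
              rw [X_pow_eq_monomial, monomial_mul, mul_one]
              congr 1
              rw [tsub_add_cancel_of_le]
              rw [Finsupp.single_le_iff]
              exact ha
            rw [this]
            exact Ideal.mul_mem_left _ _ (hN a)
          rw [Ideal.mem_span_range_iff_exists_fun] at hmem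
          obtain ⟨c, hc⟩ := hmem
          have h2 := congrArg (homogeneousComponent m) hc
          rw [homogeneousComponent_of_mem (m := m) (n := s.degree)
            ((isHomogeneous_monomial (1 : k) rfl : (monomial s (1 : k)).IsHomogeneous s.degree)),
            if_pos hs.symm, map_sum] at h2
          rw [← h2]
          apply Submodule.sum_mem
          intro i _
          rw [homogeneousComponent_mul_right _ _ (hf i)]
          split_ifs with hle
          · have h3 := ih (m - d i) (by have := hd i; omega) _
              (homogeneousComponent_isHomogeneous (m - d i) (c i))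
            have h4 := M.smul_mem (⟨f i, Algebra.subset_adjoin ⟨i, rfl⟩⟩ :
              Algebra.adjoin k (Set.range f)) h3
            rw [Algebra.smul_def] at h4
            rw [mul_comm]
            exact h4
          · exact M.zero_mem
      rw [p.as_sum]
      apply Submodule.sum_mem
      intro s hs
      have h5 := hmono s (by
        rw [Finsupp.degree_eq_weight_one]
        exact hp (mem_support_iff.mp hs))
      have : monomial s (coeff s p) = (algebraMap k (Algebra.adjoin k (Set.range f)) (coeff s p)) •
          monomial s (1 : k) := by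
        rw [algebraMap_smul, smul_monomial, smul_eq_mul, mul_one]
      rw [this]
      exact M.smul_mem _ h5
  have htop : M = ⊤ := by
    rw [eq_top_iff]
    intro p _
    rw [← sum_homogeneousComponent p]
    exact Submodule.sum_mem _ fun i _ => key i _ (homogeneousComponent_isHomogeneous i p)
  exact Module.finite_def.mpr ⟨hGfin.toFinset, by rw [Set.Finite.coe_toFinset]; exact htop⟩

theorem mem_cl_of_isAlgebraic {Ω : Type*} [Field Ω] [Algebra k Ω] {s : Set Ω} {a : Ω}
    (h : IsAlgebraic (cl k s) a) : a ∈ cl k s := by
  rw [mem_cl]
  have h' : IsAlgebraic (algebraicClosure (IntermediateField.adjoin k s) Ω) a := h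
  exact h'.restrictScalars (IntermediateField.adjoin k s)

/-- every coordinate of a point is algebraic over the values of the `f i` -/
theorem mem_cl_range {Ω : Type*} [Field Ω] [Algebra k Ω]
    (hf : ∀ i, (f i).IsHomogeneous (d i)) (hd : ∀ i, 0 < d i)
    (hN : ∀ a : σ, ∃ N, (X a : MvPolynomial σ k) ^ N ∈ Ideal.span (Set.range f))
    (lam : σ → Ω) (a : σ) : lam a ∈ cl k (Set.range fun i => aeval lam (f i)) := by
  have hfin := span_top hf hd hN
  have hint : IsIntegral (Algebra.adjoin k (Set.range f)) (X a : MvPolynomial σ k) :=
    Algebra.IsIntegral.isIntegral _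
  set L := cl k (Set.range fun i => aeval lam (f i)) with hL
  have hmem : ∀ p ∈ Algebra.adjoin k (Set.range f), aeval lam p ∈ L := by
    intro p hp
    have h1 : Algebra.adjoin k (Set.range f) ≤ L.toSubalgebra.comap (aeval lam) := by
      rw [Algebra.adjoin_le_iff]
      rintro _ ⟨i, rfl⟩
      exact subset_cl (k := k) _ ⟨i, rfl⟩
    exact h1 hp
  let φ : Algebra.adjoin k (Set.range f) →+* L :=
    { toFun := fun p => ⟨aeval lam (p : MvPolynomial σ k), hmem p p.2⟩
      map_one' := by ext; simp
      map_mul' := by intro x y; ext; simp
      map_zero' := by ext; simp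
      map_add' := by intro x y; ext; simp }
  have h2 := hint.map_of_comp_eq φ (aeval lam : MvPolynomial σ k →ₐ[k] Ω).toRingHom (by
    ext x; rfl)
  have h3 : IsAlgebraic L (lam a) := by
    have h4 := h2.isAlgebraic
    simpa using h4
  exact mem_cl_of_isAlgebraic h3

omit [Fintype σ] [Fintype τ] in
theorem eq_zero_of_all {Ω : Type*} [Field Ω] [Algebra k Ω]
    (hN : ∀ a : σ, ∃ N, (X a : MvPolynomial σ k) ^ N ∈ Ideal.span (Set.range f))
    (lam : σ → Ω) (h : ∀ i, aeval lam (f i) = 0) : lam = 0 := by
  funext a
  obtain ⟨N, hN⟩ := hN a
  have h1 : Ideal.span (Set.range f) ≤ RingHom.ker (aeval lam : MvPolynomial σ k →ₐ[k] Ω) := by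
    rw [Ideal.span_le]
    rintro _ ⟨i, rfl⟩
    exact h i
  have h2 := h1 hN
  rw [RingHom.mem_ker, map_pow, aeval_X] at h2
  exact pow_eq_zero_iff (n := N) (by rintro rfl; simp at h2) |>.mp h2

/-- if `f i` vanishes at `lam` for `i` outside `J` and `f i0` has value one, then `lam` is
algebraic over the values of the `f i`, `i` in `J` without `i0`. -/
theorem mem_cl_of_normalized {Ω : Type*} [Field Ω] [Algebra k Ω]
    (hf : ∀ i, (f i).IsHomogeneous (d i)) (hd : ∀ i, 0 < d i)
    (hN : ∀ a : σ, ∃ N, (X a : MvPolynomial σ k) ^ N ∈ Ideal.span (Set.range f))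
    (lam : σ → Ω) (J : Set τ) (i0 : τ) (hJ : ∀ i, i ∉ J → aeval lam (f i) = 0)
    (h0 : aeval lam (f i0) = 1) (a : σ) :
    lam a ∈ cl k ((fun i => aeval lam (f i)) '' (J \ {i0})) := by
  refine cl_le ?_ (mem_cl_range hf hd hN lam a)
  rintro _ ⟨i, rfl⟩
  by_cases hi : i ∈ J
  · by_cases hi0 : i = i0
    · subst hi0
      simp only [h0]
      exact one_mem _
    · exact subset_cl _ ⟨i, ⟨hi, hi0⟩, rfl⟩
  · simp only [hJ i hi]
    exact zero_mem _

end Vale.Agent.P200.RD
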