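import Mathlib
import Vale.Agent.P200.V.Circ
import Vale.Agent.P200.RD.Sop

/-! Combinatorics of the circuit, scaled configurations. -/

namespace Vale.Agent.P200.RD

open MvPolynomial Vale.Agent.P200.V

universe u

section comb
variable {b0 : ℕ} (h0 : 0 < b0)
include h0

theorem fst_lt {i g : ℕ} (h1 : nb b0 i ≤ g) : fst b0 i g < g := by
  have := nb_pos h0 i
  unfold fst
  split_ifs <;> omega

theorem fst_lt_nb {i g : ℕ} (h2 : g < nb b0 (i + 1)) :
    fst b0 i g < nb b0 (i + 1) := by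
  have := nb_pos h0 i
  rw [nb_succ] at *
  unfold fst
  split_ifs <;> omega

theorem snd_lt_nb {i g : ℕ} (h1 : nb b0 i ≤ g) (h2 : g < nb b0 (i + 1)) :
    snd b0 i g < nb b0 i := by
  have := nb_pos h0 i
  rw [nb_succ] at *
  unfold snd
  omega

theorem fst_inj {i g g' : ℕ} (h1 : nb b0 i ≤ g) (h1' : nb b0 i ≤ g')
    (h : fst b0 i g = fst b0 i g') : g = g' := by
  have := nb_pos h0 i
  unfold fst at h
  split_ifs at h <;> omega

omit h0 in
theorem snd_inj {i g g' : ℕ} (h1 : nb b0 i ≤ g) (h1' : nb b0 i ≤ g')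
    (h : snd b0 i g = snd b0 i g') : g = g' := by
  unfold snd at h
  omega

theorem fst_ne_snd {i g g' : ℕ} (h1 : nb b0 i ≤ g) (h1' : nb b0 i ≤ g')
    (h2' : g' < nb b0 (i + 1)) : fst b0 i g ≠ snd b0 i g' := by
  have := nb_pos h0 i
  rw [nb_succ] at *
  unfold fst snd
  split_ifs <;> omega

theorem root_ne_fst {i g : ℕ} (h1 : nb b0 i ≤ g) (h2 : g < nb b0 (i + 1)) :
    fst b0 i g ≠ root b0 i := by
  have := nb_pos h0 i
  unfold root fst
  rw [nb_succ] at *
  split_ifs <;> omega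

theorem root_ne_snd {i g : ℕ} (h1 : nb b0 i ≤ g) (h2 : g < nb b0 (i + 1)) :
    snd b0 i g ≠ root b0 i := by
  have := nb_pos h0 i
  unfold root snd
  rw [nb_succ] at *
  omega

theorem root_lt_nb (i : ℕ) : root b0 i < nb b0 (i + 1) := by
  have := nb_pos h0 (i + 1)
  unfold root
  omega

omit h0 in
/-- every block is a leaf or a join of a unique index -/
theorem leaf_or_join (g : ℕ) : ∀ a, g < nb b0 a →
    g < b0 ∨ ∃ i < a, nb b0 i ≤ g ∧ g < nb b0 (i + 1)
  | 0, h => Or.inl h
  | a + 1, h => by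
    by_cases h' : g < nb b0 a
    · rcases leaf_or_join g a h' with h1 | ⟨i, hi, h1, h2⟩
      · exact Or.inl h1
      · exact Or.inr ⟨i, by omega, h1, h2⟩
    · exact Or.inr ⟨a, by omega, by omega, h⟩

end comb

variable {k : Type u} [Field k] (C : CData k) {Ω : Type u} [Field Ω] [Algebra k Ω]

omit [Algebra k Ω] in
theorem aeval_mul_left [Algebra k Ω] {σ : Type*} [Fintype σ] {d : ℕ} {φ : MvPolynomial σ k}
    (hφ : φ.IsHomogeneous d) (ρ : Ω) (x : σ → Ω) : aeval (fun a => ρ * x a) φ = ρ ^ d * aeval x φ := by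
  rw [aeval_def, aeval_def, eval₂_eq', eval₂_eq', Finset.mul_sum]
  refine Finset.sum_congr rfl fun s hs => ?_
  have hd : ∑ i, s i = d := by
    have := hφ (mem_support_iff.mp hs)
    rw [← this, Finsupp.weight_apply, Finsupp.sum_fintype]
    · simp
    · simp
  simp only [mul_pow, Finset.prod_mul_distrib, Finset.prod_pow_eq_pow_sum, hd]
  ring

/-- a configuration of stage `a`: wires match up to roots of unity, the roots of the circuit vanish -/
structure Conf (par : PIx → Ω) (a e : ℕ) (x : ℕ → Fin 2 → Ω) (w : ℕ → ℕ → Ω) : Prop where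
  spec : ∀ g < nb C.b0 a, C.Spec par a a g (x g) (w g)
  wire0 : ∀ i < a, ∀ g, nb C.b0 i ≤ g → g < nb C.b0 (i + 1) →
    w (fst C.b0 i g) i ^ e = x g 0 ^ e
  wire1 : ∀ i < a, ∀ g, nb C.b0 i ≤ g → g < nb C.b0 (i + 1) →
    w (snd C.b0 i g) i ^ e = x g 1 ^ e
  root : ∀ i < a, w (root C.b0 i) i = 0

theorem m_mul_left (i g : ℕ) (ρ : Ω) (x : Fin 2 → Ω) (w : ℕ → Ω) (p : PIx) :
    C.m i g (fun a => ρ * x a) (fun j => ρ * w j) p = ρ ^ C.d i * C.m i g x w p := by
  cases p with
  | s _ _ => simp [CData.m]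
  | s' _ _ => simp [CData.m]
  | Y i1 l =>
    simp only [CData.m]
    split_ifs
    · exact aeval_mul_left (C.hH i l g) ρ x
    · simp
  | L β i' i1 =>
    simp only [CData.m, mul_pow]
    split_ifs <;> ring

theorem Spec.mul_left {par : PIx → Ω} {J a g : ℕ} {x : Fin 2 → Ω} {w : ℕ → Ω}
    (h : C.Spec par J a g x w) (ρ : Ω) :
    C.Spec par J a g (fun a => ρ * x a) (fun j => ρ * w j) where
  join := by
    intro i hi h1 h2
    have := h.join i hi h1 h2
    simp only [mul_pow] at *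
    rw [this]
    ring
  comp := by
    intro i hi h1
    have := h.comp i hi h1
    simp only [m_mul_left, mul_pow]
    rw [mul_left_comm, this, Finset.mul_sum]
    refine Finset.sum_congr rfl fun p _ => by ring

theorem Spec.mono {par : PIx → Ω} {J a J' a' g : ℕ} {x : Fin 2 → Ω} {w : ℕ → Ω}
    (h : C.Spec par J a g x w) (hJ : J' ≤ J) (ha : a' ≤ a) : C.Spec par J' a' g x w where
  join := fun i hi => h.join i (hi.trans_le hJ)
  comp := fun i hi => h.comp i (hi.trans_le ha)

theorem Conf.mul_left {par : PIx → Ω} {a e : ℕ} {x : ℕ → Fin 2 → Ω} {w : ℕ → ℕ → Ω}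
    (h : Conf C par a e x w) (ρ : Ω) :
    Conf C par a e (fun g b => ρ * x g b) (fun g j => ρ * w g j) where
  spec := fun g hg => Spec.mul_left C (h.spec g hg) ρ
  wire0 := by
    intro i hi g h1 h2
    simp only [mul_pow, h.wire0 i hi g h1 h2]
  wire1 := by
    intro i hi g h1 h2
    simp only [mul_pow, h.wire1 i hi g h1 h2]
  root := by
    intro i hi
    simp only [h.root i hi, mul_zero]

section extract
variable {par : PIx → Ω} {a : ℕ} {x : ℕ → Fin 2 → Ω} {w : ℕ → ℕ → Ω} {c : ℕ → Ω}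

theorem mem_cst_L {i i' β : ℕ} (hi : i' < i) (hβ : β < nb C.b0 (i' + 1)) :
    PIx.L β i' i ∈ C.cst i := by
  simp only [CData.cst, Finset.mem_union, Finset.mem_biUnion, Finset.mem_image, Finset.mem_range]
  exact Or.inr ⟨i', hi, β, hβ, rfl⟩

theorem mem_cst_Y {i l : ℕ} (hl : l < C.NL i) : PIx.Y i l ∈ C.cst i := by
  simp only [CData.cst, Finset.mem_union, Finset.mem_biUnion, Finset.mem_image, Finset.mem_range]
  exact Or.inl ⟨l, hl, rfl⟩

/-- the wire relation: first input -/
theorem rel_fst (hc : ∀ p ∈ C.cst a,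
      ∑ g ∈ Finset.range (nb C.b0 a), c g * C.m a g (x g) (w g) p = 0)
    {i g : ℕ} (hi : i < a) (h1 : nb C.b0 i ≤ g) (h2 : g < nb C.b0 (i + 1)) :
    c (fst C.b0 i g) * w (fst C.b0 i g) i ^ C.d a = c g * x g 0 ^ C.d a := by
  have hb := C.b0_pos
  have hnb : nb C.b0 (i + 1) ≤ nb C.b0 a := nb_mono hb (by omega)
  have h := hc _ (mem_cst_L C hi (fst_lt_nb hb h2))
  simp only [CData.m, if_true, mul_sub, Finset.sum_sub_distrib] at h
  rw [Finset.sum_eq_single_of_mem (fst C.b0 i g)
    (by have := fst_lt_nb hb h2; simp only [Finset.mem_range]; omega)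
    (by intro b _ hb'; rw [if_neg hb', mul_zero]), if_pos rfl] at h
  rw [Finset.sum_eq_single_of_mem g (by simp only [Finset.mem_range]; omega) (by
    intro b _ hne
    split_ifs with hb1 hb2 hb3 hb3
    · exact absurd (fst_inj hb hb1.1 h1 hb2) hne
    · exact absurd (fst_inj hb hb1.1 h1 hb2) hne
    · exact absurd hb3.symm (fst_ne_snd hb h1 hb1.1 hb1.2)
    · simp
    · simp), if_pos ⟨h1, h2⟩, if_pos rfl,
    if_neg (fun h => fst_ne_snd hb h1 h1 h2 h.symm), add_zero] at h
  exact sub_eq_zero.mp h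

/-- the wire relation: second input -/
theorem rel_snd (hc : ∀ p ∈ C.cst a,
      ∑ g ∈ Finset.range (nb C.b0 a), c g * C.m a g (x g) (w g) p = 0)
    {i g : ℕ} (hi : i < a) (h1 : nb C.b0 i ≤ g) (h2 : g < nb C.b0 (i + 1)) :
    c (snd C.b0 i g) * w (snd C.b0 i g) i ^ C.d a = c g * x g 1 ^ C.d a := by
  have hb := C.b0_pos
  have hnb : nb C.b0 (i + 1) ≤ nb C.b0 a := nb_mono hb (by omega)
  have hs := snd_lt_nb hb h1 h2
  have hle := nb_le_succ hb i
  have h := hc _ (mem_cst_L C hi (hs.trans_le hle))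
  simp only [CData.m, if_true, mul_sub, Finset.sum_sub_distrib] at h
  rw [Finset.sum_eq_single_of_mem (snd C.b0 i g)
    (by simp only [Finset.mem_range]; omega)
    (by intro b _ hb'; rw [if_neg hb', mul_zero]), if_pos rfl] at h
  rw [Finset.sum_eq_single_of_mem g (by simp only [Finset.mem_range]; omega) (by
    intro b _ hne
    split_ifs with hb1 hb2 hb3 hb3
    · exact absurd hb2 (fst_ne_snd hb hb1.1 h1 h2)
    · exact absurd hb2 (fst_ne_snd hb hb1.1 h1 h2)
    · exact absurd (snd_inj hb1.1 h1 hb3) hne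
    · simp
    · simp), if_pos ⟨h1, h2⟩, if_neg (fst_ne_snd hb h1 h1 h2), if_pos rfl, zero_add] at h
  exact sub_eq_zero.mp h

theorem rel_root (hc : ∀ p ∈ C.cst a,
      ∑ g ∈ Finset.range (nb C.b0 a), c g * C.m a g (x g) (w g) p = 0)
    {i : ℕ} (hi : i < a) :
    c (root C.b0 i) * w (root C.b0 i) i ^ C.d a = 0 := by
  have hb := C.b0_pos
  have hnb : nb C.b0 (i + 1) ≤ nb C.b0 a := nb_mono hb (by omega)
  have hr := root_lt_nb hb i
  have h := hc _ (mem_cst_L C hi hr)
  simp only [CData.m, if_true, mul_sub, Finset.sum_sub_distrib] at h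
  rw [Finset.sum_eq_single_of_mem (root C.b0 i)
    (by simp only [Finset.mem_range]; omega)
    (by intro b _ hb'; rw [if_neg hb', mul_zero]), if_pos rfl] at h
  rw [Finset.sum_eq_zero (s := Finset.range (nb C.b0 a)) (f := fun g => c g * _) (by
    intro b _
    split_ifs with hb1 hb2 hb3 hb3
    · exact absurd hb2 (root_ne_fst hb hb1.1 hb1.2)
    · exact absurd hb2 (root_ne_fst hb hb1.1 hb1.2)
    · exact absurd hb3 (root_ne_snd hb hb1.1 hb1.2)
    · simp
    · simp), sub_zero] at h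
  exact h

theorem rel_Y (hc : ∀ p ∈ C.cst a,
      ∑ g ∈ Finset.range (nb C.b0 a), c g * C.m a g (x g) (w g) p = 0)
    {l : ℕ} (hl : l < C.NL a) :
    ∑ g ∈ Finset.range C.b0, c g * aeval (x g) (C.H a l g) = 0 := by
  have hb := C.b0_pos
  have hnb : C.b0 ≤ nb C.b0 a := nb_mono hb (Nat.zero_le a)
  have h := hc _ (mem_cst_Y C hl)
  rw [← h]
  have hsub : Finset.range C.b0 ⊆ Finset.range (nb C.b0 a) := Finset.range_mono hnb
  rw [← Finset.sum_subset hsub]
  · refine Finset.sum_congr rfl fun g hg => ?_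
    simp only [CData.m, Finset.mem_range] at *
    rw [if_pos ⟨trivial, hg⟩]
  · intro g _ hg
    simp only [CData.m, Finset.mem_range] at *
    rw [if_neg (fun h => hg h.2), mul_zero]

/-- if the leaves have zero coefficients, all the coefficients are zero -/
theorem c_zero (hx : ∀ g < nb C.b0 a, x g ≠ 0) (hc : ∀ p ∈ C.cst a,
      ∑ g ∈ Finset.range (nb C.b0 a), c g * C.m a g (x g) (w g) p = 0)
    (hl : ∀ g < C.b0, c g = 0) : ∀ g < nb C.b0 a, c g = 0 := by
  have hb := C.b0_pos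
  intro g
  induction g using Nat.strong_induction_on with
  | _ g ih =>
    intro hg
    rcases leaf_or_join g a hg with h | ⟨i, hi, h1, h2⟩
    · exact hl g h
    · have hle := nb_le_succ hb i
      have hnb : nb C.b0 (i + 1) ≤ nb C.b0 a := nb_mono hb (by omega)
      have e1 := rel_fst C hc hi h1 h2
      have e2 := rel_snd C hc hi h1 h2
      have l1 := fst_lt hb h1
      have l2 := snd_lt_nb hb h1 h2
      rw [ih _ l1 (by omega), zero_mul] at e1
      rw [ih _ (by omega) (by omega), zero_mul] at e2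
      by_contra hne
      apply hx g hg
      have hd := (C.d_pos a).ne'
      funext b
      fin_cases b
      · exact (pow_eq_zero_iff hd).mp ((mul_eq_zero.mp e1.symm).resolve_left hne)
      · exact (pow_eq_zero_iff hd).mp ((mul_eq_zero.mp e2.symm).resolve_left hne)

end extract

end Vale.Agent.P200.RD
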