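import Mathlib
import Vale.Agent.P200.RD.Conf

/-! Scaled configurations from a dependency of the rows; the expansion of the root conditions. -/

namespace Vale.Agent.P200.RD

open MvPolynomial Vale.Agent.P200.V

universe u

variable {k : Type u} [Field k] (C : CData k) {Ω : Type u} [Field Ω] [Algebra k Ω]
  {par : PIx → Ω} {a : ℕ} {x : ℕ → Fin 2 → Ω} {w : ℕ → ℕ → Ω}

theorem exists_conf [IsAlgClosed Ω] {c : ℕ → Ω} (hx : ∀ g < nb C.b0 a, x g ≠ 0)
    (hs : ∀ g < nb C.b0 a, C.Spec par a a g (x g) (w g))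
    (hc : ∀ p ∈ C.cst a,
      ∑ g ∈ Finset.range (nb C.b0 a), c g * C.m a g (x g) (w g) p = 0)
    {g1 : ℕ} (hg1 : g1 < nb C.b0 a) (hne : c g1 ≠ 0) :
    ∃ (x' : ℕ → Fin 2 → Ω) (w' : ℕ → ℕ → Ω), Conf C par a (C.d a) x' w' ∧
      (∀ l < C.NL a, ∑ g ∈ Finset.range C.b0, aeval (x' g) (C.H a l g) = 0) ∧
      ∃ g < C.b0, x' g ≠ 0 := by
  have hd := C.d_pos a
  have hρ : ∀ g, ∃ r : Ω, r ^ C.d a = c g := fun g => IsAlgClosed.exists_pow_nat_eq (c g) hd
  choose ρ hρ using hρ
  refine ⟨fun g b => ρ g * x g b, fun g j => ρ g * w g j, ⟨?_, ?_, ?_, ?_⟩, ?_, ?_⟩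
  · intro g hg
    exact Spec.mul_left C (hs g hg) (ρ g)
  · intro i hi g h1 h2
    have := rel_fst C hc hi h1 h2
    simp only [mul_pow, hρ]
    exact this
  · intro i hi g h1 h2
    have := rel_snd C hc hi h1 h2
    simp only [mul_pow, hρ]
    exact this
  · intro i hi
    have := rel_root C hc hi
    rw [← hρ, ← mul_pow] at this
    exact (pow_eq_zero_iff hd.ne').mp this
  · intro l hl
    rw [← rel_Y C hc hl]
    refine Finset.sum_congr rfl fun g _ => ?_
    rw [aeval_mul_left (C.hH a l g), hρ]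
  · by_contra hcon
    push Not at hcon
    apply hne
    refine c_zero C hx hc (fun g hg => ?_) g1 hg1
    have hlt : g < nb C.b0 a := hg.trans_le (nb_mono C.b0_pos (Nat.zero_le a))
    have h1 := hcon g hg
    have h2 : ρ g = 0 := by
      by_contra h3
      apply hx g hlt
      funext b
      have h4 := congrFun h1 b
      simp only [Pi.zero_apply, mul_eq_zero] at h4
      exact h4.resolve_left h3
    rw [← hρ, h2, zero_pow hd.ne']

theorem exists_unit {e : ℕ} (he : e ≠ 0) {u v : Ω} (h : u ^ e = v ^ e) :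
    ∃ z : Ω, z ^ e = 1 ∧ v = z * u := by
  by_cases hu : u = 0
  · subst hu
    rw [zero_pow he] at h
    refine ⟨1, one_pow _, ?_⟩
    rw [mul_zero]
    exact (pow_eq_zero_iff he).mp h.symm
  · refine ⟨v / u, ?_, by field_simp⟩
    rw [div_pow, ← h, div_self (pow_ne_zero _ hu)]

/-- the element of index `i` which is the `t`-th value of the chain of joins of index `i` -/
def zc (i t : ℕ) : ℕ := if t = 0 then 0 else nb C.b0 i + t - 1

theorem chain {e : ℕ} (he : e ≠ 0) (hC : Conf C par a e x w) {i : ℕ} (hi : i < a) (t : ℕ)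
    (ht : t < nb C.b0 i) : ∃ ε : ℕ → Ω, (∀ g, ε g ^ e = 1) ∧
      w (zc C i t) i ^ C.d i = ∑ g ∈ Finset.range (t + 1),
        ε g ^ C.d i * (((if g = 0 then 1 else par (PIx.s' i g)) *
          ∏ u ∈ Finset.Ioo g (t + 1), par (PIx.s i u)) * w g i ^ C.d i) := by
  induction t with
  | zero =>
    refine ⟨fun _ => 1, fun _ => one_pow _, ?_⟩
    have hIoo : Finset.Ioo 0 (0 + 1) = ∅ := by
      ext v
      simp only [Finset.mem_Ioo, Finset.notMem_empty, iff_false]
      omega
    simp [zc, hIoo]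
  | succ t ih =>
    obtain ⟨ε, hε, hz⟩ := ih (by omega)
    have hb := C.b0_pos
    have hle := nb_le_succ hb i
    have h1 : nb C.b0 i ≤ nb C.b0 i + t := by omega
    have h2 : nb C.b0 i + t < nb C.b0 (i + 1) := by rw [nb_succ]; omega
    have hf : fst C.b0 i (nb C.b0 i + t) = zc C i t := by
      unfold fst zc
      split_ifs <;> omega
    have hsn : snd C.b0 i (nb C.b0 i + t) = t + 1 := by
      unfold snd
      omega
    have hlt : nb C.b0 i + t < nb C.b0 a := h2.trans_le (nb_mono hb (by omega))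
    have w0 := hC.wire0 i hi _ h1 h2
    have w1 := hC.wire1 i hi _ h1 h2
    rw [hf] at w0
    rw [hsn] at w1
    obtain ⟨z, hz1, hz2⟩ := exists_unit he w0
    obtain ⟨z', hz1', hz2'⟩ := exists_unit he w1
    have hj := (hC.spec _ hlt).join i hi h1 h2
    rw [hsn] at hj
    simp only [Algebra.algebraMap_self, RingHom.id_apply] at hj
    have hzc : zc C i (t + 1) = nb C.b0 i + t := by
      unfold zc
      rw [if_neg (by omega)]
      omega
    refine ⟨fun g => if g = t + 1 then z' else z * ε g, fun g => ?_, ?_⟩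
    · beta_reduce
      split_ifs
      · exact hz1'
      · rw [mul_pow, hz1, hε, one_mul]
    · rw [hzc, hj, hz2, hz2', mul_pow, mul_pow, hz, Finset.sum_range_succ _ (t + 1)]
      congr 1
      · rw [Finset.mul_sum, Finset.mul_sum]
        refine Finset.sum_congr rfl fun g hg => ?_
        have hg' : g ≤ t := by
          have := Finset.mem_range.mp hg
          omega
        beta_reduce
        rw [if_neg (by omega : ¬ g = t + 1)]
        have hIoo : Finset.Ioo g (t + 1 + 1) = insert (t + 1) (Finset.Ioo g (t + 1)) := by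
          ext v
          simp only [Finset.mem_Ioo, Finset.mem_insert]
          omega
        rw [hIoo, Finset.prod_insert (by simp), mul_pow]
        ring
      · beta_reduce
        rw [if_pos rfl, if_neg (by omega)]
        have hIoo : Finset.Ioo (t + 1) (t + 1 + 1) = ∅ := by
          ext v
          simp only [Finset.mem_Ioo, Finset.notMem_empty, iff_false]
          omega
        rw [hIoo, Finset.prod_empty]
        ring

theorem root_rel {e : ℕ} (he : e ≠ 0) (hC : Conf C par a e x w) {i : ℕ} (hi : i < a) :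
    ∃ ε : ℕ → Ω, (∀ g, ε g ^ e = 1) ∧
      ∑ g ∈ Finset.range (nb C.b0 i), ε g ^ C.d i * (C.Sc par i g * w g i ^ C.d i) = 0 := by
  have hb := nb_pos C.b0_pos i
  obtain ⟨ε, hε, h⟩ := chain C he hC hi (nb C.b0 i - 1) (by omega)
  refine ⟨ε, hε, ?_⟩
  have hr : zc C i (nb C.b0 i - 1) = root C.b0 i := by
    unfold zc root
    rw [nb_succ]
    split_ifs <;> omega
  rw [hr, hC.root i hi, zero_pow (C.d_pos i).ne', Nat.sub_add_cancel hb] at h
  exact h.symm

/-- the linear relation between the parameters of index `i` -/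
theorem lin_rel {e : ℕ} (he : e ≠ 0) (hC : Conf C par a e x w) {i : ℕ} (hi : i < a) :
    ∃ ε : ℕ → Ω, (∀ g, ε g ^ e = 1) ∧
      ∑ p ∈ C.cst i, par p * (∑ g ∈ Finset.range (nb C.b0 i),
        ε g ^ C.d i * C.m i g (x g) (w g) p) = 0 := by
  obtain ⟨ε, hε, h⟩ := root_rel C he hC hi
  refine ⟨ε, hε, ?_⟩
  have hle : nb C.b0 i ≤ nb C.b0 a := nb_mono C.b0_pos (by omega)
  rw [← h]
  simp only [Finset.mul_sum]
  rw [Finset.sum_comm]
  refine Finset.sum_congr rfl fun g hg => ?_
  have hg' := Finset.mem_range.mp hg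
  have hcmp := (hC.spec g (by omega)).comp i hi hg'
  simp only [Algebra.algebraMap_self, RingHom.id_apply] at hcmp
  rw [hcmp, Finset.mul_sum]
  refine Finset.sum_congr rfl fun p _ => by ring

theorem coeff_Y (ε : ℕ → Ω) (i l : ℕ) :
    ∑ g ∈ Finset.range (nb C.b0 i), ε g ^ C.d i * C.m i g (x g) (w g) (PIx.Y i l) =
      ∑ g ∈ Finset.range C.b0, aeval (fun b => ε g * x g b) (C.H i l g) := by
  have hnb : C.b0 ≤ nb C.b0 i := nb_mono C.b0_pos (Nat.zero_le i)
  have hsub : Finset.range C.b0 ⊆ Finset.range (nb C.b0 i) := Finset.range_mono hnb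
  rw [← Finset.sum_subset hsub]
  · refine Finset.sum_congr rfl fun g hg => ?_
    simp only [CData.m, Finset.mem_range] at *
    rw [if_pos ⟨trivial, hg⟩, aeval_mul_left (C.hH i l g)]
  · intro g _ hg
    simp only [CData.m, Finset.mem_range] at *
    rw [if_neg (fun h => hg h.2), mul_zero]

end Vale.Agent.P200.RD
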