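import Mathlib
import Vale.Agent.P200.RD.Chain

/-! All the values of a configuration are algebraic over the parameters and the leaves; the count. -/

namespace Vale.Agent.P200.RD

open MvPolynomial Vale.Agent.P200.V

universe u

variable {k : Type u} [Field k] (C : CData k) {Ω : Type u} [Field Ω] [Algebra k Ω]
  {par : PIx → Ω} {a : ℕ} {x : ℕ → Fin 2 → Ω} {w : ℕ → ℕ → Ω} {e : ℕ}

theorem aeval_mem (F : IntermediateField k Ω) {y : Fin 2 → Ω} (hy : ∀ b, y b ∈ F)
    (φ : MvPolynomial (Fin 2) k) : aeval y φ ∈ F := by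
  induction φ using MvPolynomial.induction_on with
  | C c => rw [aeval_C]; exact F.algebraMap_mem c
  | add p q hp hq => rw [map_add]; exact add_mem hp hq
  | mul_X p b hp => rw [map_mul, aeval_X]; exact mul_mem hp (hy b)

theorem m_mem (F : IntermediateField k Ω) {i g : ℕ} {y : Fin 2 → Ω} {v : ℕ → Ω}
    (hy : ∀ b, y b ∈ F) (hv : ∀ i' < i, g < nb C.b0 (i' + 1) → v i' ∈ F)
    {p : PIx} (hp : p ∈ C.cst i) : C.m i g y v p ∈ F := by
  cases p with
  | s _ _ => exact zero_mem _
  | s' _ _ => exact zero_mem _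
  | Y i1 l =>
    simp only [CData.m]
    split_ifs
    · exact aeval_mem F hy _
    · exact zero_mem _
  | L β i' i1 =>
    simp only [CData.cst, Finset.mem_union, Finset.mem_biUnion, Finset.mem_image,
      Finset.mem_range, reduceCtorEq, and_false, exists_false, false_or, PIx.L.injEq] at hp
    obtain ⟨i2, hi2, β2, hβ2, rfl, rfl, rfl⟩ := hp
    simp only [CData.m, if_true]
    refine sub_mem ?_ ?_
    · split_ifs with h
      · subst h
        exact pow_mem (hv _ hi2 hβ2) _
      · exact zero_mem _
    · split_ifs <;> first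
        | exact zero_mem _
        | exact add_mem (pow_mem (hy _) _) (pow_mem (hy _) _)
        | exact add_mem (pow_mem (hy _) _) (zero_mem _)
        | exact add_mem (zero_mem _) (pow_mem (hy _) _)
        | exact add_mem (zero_mem _) (zero_mem _)

theorem mem_jst_s {i t : ℕ} (h1 : 1 ≤ t) (h2 : t < nb C.b0 i) : PIx.s i t ∈ C.jst i := by
  simp only [CData.jst, Finset.mem_union, Finset.mem_image, Finset.mem_Ico]
  exact Or.inl ⟨t, ⟨h1, h2⟩, rfl⟩

theorem mem_jst_s' {i t : ℕ} (h1 : 1 ≤ t) (h2 : t < nb C.b0 i) : PIx.s' i t ∈ C.jst i := by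
  simp only [CData.jst, Finset.mem_union, Finset.mem_image, Finset.mem_Ico]
  exact Or.inr ⟨t, ⟨h1, h2⟩, rfl⟩

theorem jst_sub {i : ℕ} (hi : i < C.n) : C.jst i ⊆ C.upto a :=
  (Finset.subset_biUnion_of_mem C.jst (Finset.mem_range.mpr hi)).trans Finset.subset_union_left

theorem cst_sub {i : ℕ} (hi : i < a) : C.cst i ⊆ C.upto a :=
  (Finset.subset_biUnion_of_mem C.cst (Finset.mem_range.mpr hi)).trans Finset.subset_union_right

theorem upto_mono {q : ℕ} (h : q ≤ a) : C.upto q ⊆ C.upto a := by
  unfold CData.upto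
  exact Finset.union_subset_union_right
    (Finset.biUnion_subset_biUnion_of_subset_left _ (Finset.range_mono h))

theorem Sc_ne_zero (hP : AlgebraicIndependent k (fun p : {p // p ∈ C.upto a} => par p))
    {i : ℕ} (hi : i < C.n) {g : ℕ} (hg : g < nb C.b0 i) : C.Sc par i g ≠ 0 := by
  have hne : ∀ p ∈ C.jst i, par p ≠ 0 := fun p hp => hP.ne_zero ⟨p, jst_sub C hi hp⟩
  unfold CData.Sc
  refine mul_ne_zero ?_ (Finset.prod_ne_zero_iff.mpr fun u hu => ?_)
  · split_ifs with h
    · exact one_ne_zero
    · exact hne _ (mem_jst_s' C (by omega) hg)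
  · have := Finset.mem_Ioo.mp hu
    exact hne _ (mem_jst_s C (by omega) (by omega))

theorem alg_all {V : Set Ω} (he : e ≠ 0) (hC : Conf C par a e x w)
    (hleaf : ∀ g < C.b0, ∀ b, x g b ∈ cl k V) (i : ℕ) (hi : i ≤ a)
    (hj : ∀ i' < i, ∀ p ∈ C.jst i', par p ∈ cl k V)
    (hp : ∀ i' < i, ∀ p ∈ C.cst i', par p ∈ cl k V)
    (hS : ∀ i' < i, ∀ g < nb C.b0 i', C.Sc par i' g ≠ 0) :
    (∀ g < nb C.b0 i, ∀ b, x g b ∈ cl k V) ∧
      (∀ i' < i, ∀ g < nb C.b0 (i' + 1), w g i' ∈ cl k V) := by
  induction i with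
  | zero => exact ⟨hleaf, by omega⟩
  | succ i ih =>
    obtain ⟨ihx, ihw⟩ := ih (by omega) (fun i' h => hj i' (by omega))
      (fun i' h => hp i' (by omega)) (fun i' h => hS i' (by omega))
    have hb := C.b0_pos
    have hle := nb_le_succ hb i
    have hnb : nb C.b0 (i + 1) ≤ nb C.b0 a := nb_mono hb hi
    have hpos := nb_pos hb i
    have h1 : ∀ g < nb C.b0 i, w g i ∈ cl k V := by
      intro g hg
      have h := (hC.spec g (by omega)).comp i (by omega) hg
      simp only [Algebra.algebraMap_self, RingHom.id_apply] at h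
      have hS' := hS i (by omega) g hg
      have hScl : C.Sc par i g ∈ cl k V := by
        unfold CData.Sc
        refine mul_mem ?_ (prod_mem fun u hu => ?_)
        · split_ifs with h0
          · exact one_mem _
          · exact hj i (by omega) _ (mem_jst_s' C (by omega) hg)
        · have := Finset.mem_Ioo.mp hu
          exact hj i (by omega) _ (mem_jst_s C (by omega) (by omega))
      have hr : C.Sc par i g * w g i ^ C.d i ∈ cl k V := by
        rw [h]
        refine sum_mem fun p hpp => mul_mem (hp i (by omega) p hpp) ?_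
        exact m_mem C _ (ihx g hg) (fun i' hi' hg' => ihw i' hi' g hg') hpp
      have hw : w g i ^ C.d i ∈ cl k V := by
        have : w g i ^ C.d i = (C.Sc par i g)⁻¹ * (C.Sc par i g * w g i ^ C.d i) := by
          rw [inv_mul_cancel_left₀ hS']
        rw [this]
        exact mul_mem (inv_mem hScl) hr
      exact mem_cl_of_pow (C.d_pos i).ne' hw
    have h2 : ∀ g, nb C.b0 i ≤ g → g < nb C.b0 (i + 1) →
        (∀ b, x g b ∈ cl k V) ∧ w g i ∈ cl k V := by
      intro g
      induction g using Nat.strong_induction_on with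
      | _ g ihg =>
        intro hg1 hg2
        have w0 := hC.wire0 i (by omega) g hg1 hg2
        have w1 := hC.wire1 i (by omega) g hg1 hg2
        have l0 := fst_lt hb hg1
        have l1 := snd_lt_nb hb hg1 hg2
        have m0 : w (fst C.b0 i g) i ∈ cl k V := by
          by_cases hlt : fst C.b0 i g < nb C.b0 i
          · exact h1 _ hlt
          · exact (ihg _ l0 (by omega) (by omega)).2
        have m1 : w (snd C.b0 i g) i ∈ cl k V := h1 _ l1
        have x0 : x g 0 ∈ cl k V := mem_cl_of_pow he (w0 ▸ pow_mem m0 _)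
        have x1 : x g 1 ∈ cl k V := mem_cl_of_pow he (w1 ▸ pow_mem m1 _)
        refine ⟨fun b => by fin_cases b; exacts [x0, x1], ?_⟩
        have h := (hC.spec g (by omega)).join i (by omega) hg1 hg2
        simp only [Algebra.algebraMap_self, RingHom.id_apply] at h
        have hs1 : 1 ≤ snd C.b0 i g := by unfold snd; omega
        apply mem_cl_of_pow (C.d_pos i).ne'
        rw [h]
        exact add_mem (mul_mem (hj i (by omega) _ (mem_jst_s C hs1 l1)) (pow_mem x0 _))
          (mul_mem (hj i (by omega) _ (mem_jst_s' C hs1 l1)) (pow_mem x1 _))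
    refine ⟨fun g hg => ?_, fun i' hi' g hg => ?_⟩
    · by_cases h : g < nb C.b0 i
      · exact ihx g h
      · exact (h2 g (by omega) hg).1
    · by_cases h : i' < i
      · exact ihw i' h g hg
      · obtain rfl : i' = i := by omega
        by_cases h' : g < nb C.b0 i'
        · exact h1 g h'
        · exact (h2 g (by omega) hg).2

end Vale.Agent.P200.RD
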