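import Mathlib
import Vale.Agent.P200.RD.Alg

/-! The transcendence degree count. -/

namespace Vale.Agent.P200.RD

open MvPolynomial Vale.Agent.P200.V

universe u

variable {k : Type u} [Field k] (C : CData k) {Ω : Type u} [Field Ω] [Algebra k Ω]
  {par : PIx → Ω} {a : ℕ} {x : ℕ → Fin 2 → Ω} {w : ℕ → ℕ → Ω} {e : ℕ}

theorem cst_index {i i' l : ℕ} (h : PIx.Y i l ∈ C.cst i') : i = i' := by
  simp only [CData.cst, Finset.mem_union, Finset.mem_biUnion, Finset.mem_image,
    Finset.mem_range, reduceCtorEq, and_false, exists_false, or_false, PIx.Y.injEq] at h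
  obtain ⟨_, _, h, _⟩ := h
  exact h.symm

theorem root_of_unity_mem (F : IntermediateField k Ω) (hF : ∀ z : Ω, z ^ e ∈ F → z ∈ F)
    {z : Ω} (hz : z ^ e = 1) : z ∈ F := hF z (hz ▸ one_mem _)

theorem core (hP : AlgebraicIndependent k (fun p : {p // p ∈ C.upto a} => par p))
    (han : a ≤ C.n) (he : e ≠ 0) (hC : Conf C par a e x w) {q : ℕ} (hqa : q ≤ a)
    (hq : 1 ≤ q) (V0 : Finset Ω) (hV0 : V0.card ≤ q - 1)
    (hleaf : ∀ g < C.b0, ∀ b, x g b ∈ cl k (V0 : Set Ω))
    (hNT : ∀ i < q, ∀ ε : ℕ → Ω, (∀ g, ε g ^ e = 1) → ∃ l < C.NL i,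
      ∑ g ∈ Finset.range C.b0, aeval (fun b => ε g * x g b) (C.H i l g) ≠ 0) : False := by
  classical
  have hrel : ∀ i : ℕ, ∃ (ε : ℕ → Ω) (l : ℕ), i < q → ((∀ g, ε g ^ e = 1) ∧ l < C.NL i ∧
      (∑ p ∈ C.cst i, par p * (∑ g ∈ Finset.range (nb C.b0 i),
        ε g ^ C.d i * C.m i g (x g) (w g) p) = 0) ∧
      ∑ g ∈ Finset.range (nb C.b0 i), ε g ^ C.d i * C.m i g (x g) (w g) (PIx.Y i l) ≠ 0) := by
    intro i
    by_cases hi : i < q
    · obtain ⟨ε, hε, h⟩ := lin_rel C he hC (i := i) (by omega)
      obtain ⟨l, hl, hne⟩ := hNT i hi ε hε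
      refine ⟨ε, l, fun _ => ⟨hε, hl, h, ?_⟩⟩
      rw [coeff_Y]
      exact hne
    · exact ⟨fun _ => 0, 0, fun h => absurd h hi⟩
  choose ε l hrel using hrel
  set Z : Finset PIx := (Finset.range q).image fun i => PIx.Y i (l i) with hZ
  have hZcard : Z.card = q := by
    rw [hZ, Finset.card_image_of_injOn, Finset.card_range]
    intro i _ j _ h
    simp only [PIx.Y.injEq] at h
    exact h.1
  have hZsub : Z ⊆ C.upto q := by
    intro p hp
    simp only [hZ, Finset.mem_image, Finset.mem_range] at hp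
    obtain ⟨i, hi, rfl⟩ := hp
    exact cst_sub C hi (mem_cst_Y C (hrel i hi).2.1)
  set V : Finset Ω := V0 ∪ (C.upto q \ Z).image par with hV
  have hVcard : V.card < (C.upto q).card := by
    have h1 : V.card ≤ V0.card + (C.upto q \ Z).card :=
      (Finset.card_union_le _ _).trans (Nat.add_le_add_left Finset.card_image_le _)
    have h2 : (C.upto q \ Z).card = (C.upto q).card - Z.card := Finset.card_sdiff_of_subset hZsub
    have h3 := Finset.card_le_card hZsub
    omega
  have hpar : ∀ p ∈ C.upto q, p ∉ Z → par p ∈ cl k (V : Set Ω) := by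
    intro p hp hpZ
    apply subset_cl
    rw [hV, Finset.coe_union]
    exact Or.inr (Finset.mem_coe.mpr (Finset.mem_image_of_mem _ (Finset.mem_sdiff.mpr ⟨hp, hpZ⟩)))
  have hleaf' : ∀ g < C.b0, ∀ b, x g b ∈ cl k (V : Set Ω) := by
    intro g hg b
    refine cl_mono ?_ (hleaf g hg b)
    rw [hV, Finset.coe_union]
    exact Set.subset_union_left
  have hjst : ∀ i < q, ∀ p ∈ C.jst i, par p ∈ cl k (V : Set Ω) := by
    intro i hi p hp
    apply hpar p (jst_sub C (by omega) hp)
    intro hpZ
    simp only [hZ, Finset.mem_image, Finset.mem_range] at hpZ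
    obtain ⟨i', _, rfl⟩ := hpZ
    simp [CData.jst] at hp
  have key : ∀ i ≤ q, ∀ i' < i, ∀ p ∈ C.cst i', par p ∈ cl k (V : Set Ω) := by
    intro i
    induction i with
    | zero => omega
    | succ i ih =>
      intro hi i' hi' p hp
      have ih' := ih (by omega)
      by_cases hlt : i' < i
      · exact ih' i' hlt p hp
      · obtain rfl : i' = i := by omega
        obtain ⟨hx, hw⟩ := alg_all C (V := (V : Set Ω)) he hC hleaf' i' (by omega)
          (fun j hj => hjst j (by omega)) ih'
          (fun j hj g hg => Sc_ne_zero C hP (by omega) hg)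
        obtain ⟨hε, hl, hsum, hne⟩ := hrel i' (by omega)
        have hA : ∀ p ∈ C.cst i', ∑ g ∈ Finset.range (nb C.b0 i'),
            ε i' g ^ C.d i' * C.m i' g (x g) (w g) p ∈ cl k (V : Set Ω) := by
          intro p hp
          refine sum_mem fun g hg => mul_mem (pow_mem ?_ _) ?_
          · exact mem_cl_of_pow he ((hε g).symm ▸ one_mem _)
          · exact m_mem C _ (hx g (Finset.mem_range.mp hg))
              (fun j hj hg' => hw j hj g hg') hp
        by_cases hpY : p = PIx.Y i' (l i')
        · subst hpY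
          rw [← Finset.add_sum_erase _ _ hp] at hsum
          have h1 : ∑ p ∈ (C.cst i').erase (PIx.Y i' (l i')), par p *
              (∑ g ∈ Finset.range (nb C.b0 i'),
                ε i' g ^ C.d i' * C.m i' g (x g) (w g) p) ∈ cl k (V : Set Ω) := by
            refine sum_mem fun p' hp' => mul_mem ?_ (hA p' (Finset.mem_of_mem_erase hp'))
            apply hpar p' (cst_sub C (by omega) (Finset.mem_of_mem_erase hp'))
            intro hpZ
            simp only [hZ, Finset.mem_image, Finset.mem_range] at hpZ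
            obtain ⟨j, _, rfl⟩ := hpZ
            have := cst_index C (Finset.mem_of_mem_erase hp')
            subst this
            exact (Finset.mem_erase.mp hp').1 rfl
          have h2 : par (PIx.Y i' (l i')) = -(∑ p ∈ (C.cst i').erase (PIx.Y i' (l i')), par p *
              (∑ g ∈ Finset.range (nb C.b0 i'),
                ε i' g ^ C.d i' * C.m i' g (x g) (w g) p)) *
              (∑ g ∈ Finset.range (nb C.b0 i'),
                ε i' g ^ C.d i' * C.m i' g (x g) (w g) (PIx.Y i' (l i')))⁻¹ := by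
            rw [eq_mul_inv_iff_mul_eq₀ hne]
            exact eq_neg_of_add_eq_zero_left hsum
          rw [h2]
          exact mul_mem (neg_mem h1) (inv_mem (hA _ hp))
        · apply hpar p (cst_sub C (by omega) hp)
          intro hpZ
          simp only [hZ, Finset.mem_image, Finset.mem_range] at hpZ
          obtain ⟨j, _, rfl⟩ := hpZ
          have := cst_index C hp
          subst this
          exact hpY rfl
  have hall : ∀ p : {p // p ∈ C.upto q}, par p ∈ cl k (V : Set Ω) := by
    rintro ⟨p, hp⟩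
    by_cases hpZ : p ∈ Z
    · simp only [hZ, Finset.mem_image, Finset.mem_range] at hpZ
      obtain ⟨j, hj, rfl⟩ := hpZ
      exact key q le_rfl j hj _ (mem_cst_Y C (hrel j hj).2.1)
    · exact hpar p hp hpZ
  have hPq : AlgebraicIndependent k (fun p : {p // p ∈ C.upto q} => par p) :=
    hP.comp (fun p : {p // p ∈ C.upto q} => (⟨p, upto_mono C hqa p.2⟩ : {p // p ∈ C.upto a}))
      (fun p p' h => Subtype.ext (by simpa using h))
  have := card_le hPq hall
  rw [Fintype.card_coe] at this
  omega

end Vale.Agent.P200.RD
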