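import Mathlib
import Vale.Agent.P200.RD.Core

/-! Independence of the rows at every stage (note 9230 (4), note 9378 (3)). -/

namespace Vale.Agent.P200.RD

open MvPolynomial Vale.Agent.P200.V

universe u

variable {k : Type u} [Field k] (C : CData k)

/-- hypotheses on the circuit: degrees decreasing, forms `f i` of degree `d i` generating an ideal
which contains powers of all the variables, linear forms `L g b` of the leaf planes, and the base
locus of the spaces of decompositions. -/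
structure Good {σ : Type*} (f : Fin C.n → MvPolynomial σ k)
    (L : ℕ → Fin 2 → MvPolynomial σ k) : Prop where
  anti : ∀ i, C.d (i + 1) ≤ C.d i
  hf : ∀ i, (f i).IsHomogeneous (C.d i)
  hN : ∀ v : σ, ∃ N, (X v : MvPolynomial σ k) ^ N ∈ Ideal.span (Set.range f)
  hL : ∀ g b, (L g b).IsHomogeneous 1
  base : ∀ i < C.n, ∀ (Ω : Type u) [Field Ω] [IsAlgClosed Ω] [Algebra k Ω] (γ : ℕ → Fin 2 → Ω),
    (∀ l < C.NL i, ∑ g ∈ Finset.range C.b0, aeval (γ g) (C.H i l g) = 0) →
    ∃ lam : σ → Ω, (∀ i' : Fin C.n, C.d i' ≤ C.d i → aeval lam (f i') = 0) ∧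
      ∀ g < C.b0, ∃ ε : Ω, ε ^ C.d i = 1 ∧ ∀ b, γ g b = ε * aeval lam (L g b)

theorem ind {σ : Type*} [Fintype σ] {f : Fin C.n → MvPolynomial σ k}
    {L : ℕ → Fin 2 → MvPolynomial σ k} (h : Good C f L) : ∀ a < C.n, C.Ind a := by
  classical
  intro a ha Ω _ _ _ par hP x w hx hspec c hc
  by_contra hcon
  push Not at hcon
  obtain ⟨g1, hg1, hne⟩ := hcon
  have hb := C.b0_pos
  have hR : nb C.b0 a ≤ C.R := nb_mono hb ha.le
  obtain ⟨x', w', hC, hY, g2, hg2, hx2⟩ := exists_conf C (fun g hg => hx g (by omega))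
    (fun g hg => Spec.mono C (hspec g (by omega)) ha.le le_rfl) hc hg1 hne
  have he : C.d a ≠ 0 := (C.d_pos a).ne'
  have hanti : ∀ i j, i ≤ j → C.d j ≤ C.d i := fun i j hij =>
    antitone_nat_of_succ_le h.anti hij
  let Triv : ℕ → Prop := fun i => ∃ lam : σ → Ω,
    (∀ i' : Fin C.n, C.d i' ≤ C.d i → aeval lam (f i') = 0) ∧
    ∀ g < C.b0, ∃ ε : Ω, (∃ N, N ≠ 0 ∧ ε ^ N = 1) ∧ ∀ b, x' g b = ε * aeval lam (L g b)
  have hTa : ∃ i, Triv i := by
    refine ⟨a, ?_⟩
    obtain ⟨lam, h1, h2⟩ := h.base a ha Ω x' hY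
    refine ⟨lam, h1, fun g hg => ?_⟩
    obtain ⟨ε, hε, hε'⟩ := h2 g hg
    exact ⟨ε, ⟨C.d a, he, hε⟩, hε'⟩
  have hTa' : Triv a := by
    obtain ⟨lam, h1, h2⟩ := h.base a ha Ω x' hY
    refine ⟨lam, h1, fun g hg => ?_⟩
    obtain ⟨ε, hε, hε'⟩ := h2 g hg
    exact ⟨ε, ⟨C.d a, he, hε⟩, hε'⟩
  set is := Nat.find hTa with his
  have his_le : is ≤ a := Nat.find_min' hTa hTa'
  have hTis : Triv is := Nat.find_spec hTa
  have hq_ex : ∃ i, C.d i ≤ C.d is := ⟨is, le_rfl⟩
  set q := Nat.find hq_ex with hq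
  have hq_le : q ≤ is := Nat.find_min' hq_ex le_rfl
  have hq_spec : C.d q ≤ C.d is := Nat.find_spec hq_ex
  obtain ⟨lam, hlam, hxl⟩ := hTis
  have hlam0 : lam ≠ 0 := by
    intro h0
    apply hx2
    obtain ⟨ε, -, hε⟩ := hxl g2 hg2
    funext b
    rw [hε b, h0]
    have h1 := aeval_mul_left (h.hL g2 b) (0 : Ω) (0 : σ → Ω)
    simp only [Pi.zero_apply, mul_zero, pow_one, zero_mul] at h1
    have h2 : aeval (0 : σ → Ω) (L g2 b) = 0 := h1
    rw [h2, mul_zero]
    rfl
  obtain ⟨i0, hi0⟩ : ∃ i0 : Fin C.n, aeval lam (f i0) ≠ 0 := by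
    by_contra hcon
    push Not at hcon
    exact hlam0 (eq_zero_of_all h.hN lam hcon)
  have hi0q : (i0 : ℕ) < q := by
    by_contra hlt
    exact hi0 (hlam i0 ((hanti _ _ (by omega)).trans hq_spec))
  obtain ⟨ρ, hρ⟩ := IsAlgClosed.exists_pow_nat_eq ((aeval lam (f i0))⁻¹) (C.d_pos i0)
  have hρ0 : ρ ≠ 0 := by
    rintro rfl
    rw [zero_pow (C.d_pos i0).ne'] at hρ
    exact inv_ne_zero hi0 hρ.symm
  have hval : ∀ i : Fin C.n, aeval (fun v => ρ * lam v) (f i) = ρ ^ C.d i * aeval lam (f i) :=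
    fun i => aeval_mul_left (h.hf i) ρ lam
  have hCρ := Conf.mul_left C hC ρ
  set V0 : Finset Ω := (Finset.univ.filter fun i : Fin C.n => (i : ℕ) < q ∧ i ≠ i0).image
    fun i => aeval (fun v => ρ * lam v) (f i) with hV0
  have hV0card : V0.card ≤ q - 1 := by
    refine Finset.card_image_le.trans ?_
    have h1 : (Finset.univ.filter fun i : Fin C.n => (i : ℕ) < q ∧ i ≠ i0).image
        (fun i : Fin C.n => (i : ℕ)) ⊆ (Finset.range q).erase (i0 : ℕ) := by
      intro v hv
      simp only [Finset.mem_image, Finset.mem_filter, Finset.mem_univ, true_and] at hv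
      obtain ⟨i, ⟨h1, h2⟩, rfl⟩ := hv
      simp only [Finset.mem_erase, Finset.mem_range]
      exact ⟨fun h => h2 (Fin.ext h), h1⟩
    have h2 := Finset.card_le_card h1
    rw [Finset.card_image_of_injective _ Fin.val_injective, Finset.card_erase_of_mem
      (Finset.mem_range.mpr hi0q), Finset.card_range] at h2
    exact h2
  have hlamcl : ∀ v, ρ * lam v ∈ cl k (V0 : Set Ω) := by
    intro v
    have h1 := mem_cl_of_normalized (fun i => h.hf i) (fun i => C.d_pos i) h.hN
      (fun v => ρ * lam v) {i : Fin C.n | (i : ℕ) < q} i0 (fun i hi => by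
        rw [hval, hlam i ((hanti q i (by simpa using hi)).trans hq_spec), mul_zero])
      (by rw [hval, hρ, inv_mul_cancel₀ hi0]) v
    refine cl_mono ?_ h1
    rintro _ ⟨i, hi, rfl⟩
    rw [hV0]
    apply Finset.mem_coe.mpr
    apply Finset.mem_image_of_mem
    simp only [Finset.mem_filter, Finset.mem_univ, true_and]
    exact ⟨hi.1, fun h => hi.2 h⟩
  refine core C hP ha.le he hCρ (hq_le.trans his_le) (by omega) V0 hV0card ?_ ?_
  · intro g hg b
    obtain ⟨ε, ⟨N, hN0, hN⟩, hε⟩ := hxl g hg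
    rw [hε b, mul_left_comm, ← pow_one ρ, ← aeval_mul_left (h.hL g b) ρ lam]
    refine mul_mem (mem_cl_of_pow hN0 (hN.symm ▸ one_mem _)) ?_
    generalize L g b = φ
    induction φ using MvPolynomial.induction_on with
    | C c => rw [aeval_C]; exact IntermediateField.algebraMap_mem _ c
    | add p q hp hq => rw [map_add]; exact add_mem hp hq
    | mul_X p v hp => rw [map_mul, aeval_X]; exact mul_mem hp (hlamcl v)
  · intro i hi ε hε
    by_contra hcon
    push Not at hcon
    have hlt : i < is := by omega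
    refine Nat.find_min hTa hlt ?_
    have hY' : ∀ l < C.NL i, ∑ g ∈ Finset.range C.b0,
        aeval (fun b => ε g * x' g b) (C.H i l g) = 0 := by
      intro l hl
      have h1 := hcon l hl
      have h2 : ∀ g, aeval (fun b => ε g * (ρ * x' g b)) (C.H i l g) =
          ρ ^ C.d i * aeval (fun b => ε g * x' g b) (C.H i l g) := by
        intro g
        rw [← aeval_mul_left (C.hH i l g)]
        congr 1
        congr 1
        funext b
        ring
      simp only [h2, ← Finset.mul_sum] at h1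
      exact (mul_eq_zero.mp h1).resolve_left (pow_ne_zero _ hρ0)
    obtain ⟨lam', h1, h2⟩ := h.base i (by omega) Ω _ hY'
    refine ⟨lam', h1, fun g hg => ?_⟩
    obtain ⟨ε', hε', hε''⟩ := h2 g hg
    have hεg : ε g ≠ 0 := by
      intro h0
      have := hε g
      rw [h0, zero_pow he] at this
      exact zero_ne_one this
    refine ⟨(ε g)⁻¹ * ε', ⟨C.d a * C.d i, Nat.mul_ne_zero he (C.d_pos i).ne', ?_⟩, fun b => ?_⟩
    · rw [mul_pow, inv_pow, pow_mul, hε, one_pow, inv_one, one_mul, mul_comm, pow_mul, hε',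
        one_pow]
    · rw [mul_assoc, ← hε'' b, inv_mul_cancel_left₀ hεg]

end Vale.Agent.P200.RD
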