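import Mathlib
import Vale.Agent.P200.RD.Ind
import Vale.Agent.P200.U.Planes

/-! The circuit of a system of forms. -/

namespace Vale.Agent.P200.RD

open MvPolynomial Vale.Agent.P200.V Vale.Agent.P200.U

universe u

variable {k : Type u} [Field k]

/-- the circuit exists, satisfies IND at every stage, and its forms span the ideal in degree `d i` -/
theorem exists_circuit [Infinite k] {n : ℕ} (hn : 0 < n) (f : Fin n → MvPolynomial (Fin n) k)
    (d : ℕ → ℕ) (hd : ∀ i, 0 < d i) (hanti : ∀ i, d (i + 1) ≤ d i)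
    (hE : ((d 0).factorial : k) ≠ 0) (hf : ∀ i : Fin n, (f i).IsHomogeneous (d i))
    (hN : ∀ v : Fin n, ∃ N, (X v : MvPolynomial (Fin n) k) ^ N ∈ Ideal.span (Set.range f)) :
    ∃ (C : CData k) (L : ℕ → Fin 2 → MvPolynomial (Fin n) k), C.n = n ∧ C.d = d ∧
      (∀ a < C.n, C.Ind a) ∧ (∀ g b, (L g b).IsHomogeneous 1) ∧
      (∀ i l, ∑ g ∈ Finset.range C.b0, aeval (L g) (C.H i l g) ∈ Ideal.span (Set.range f)) ∧
      (∀ i (p : MvPolynomial (Fin n) k), p.IsHomogeneous (d i) → p ∈ Ideal.span (Set.range f) →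
        ∃ y : ℕ → k, ∑ l ∈ Finset.range (C.NL i),
          MvPolynomial.C (y l) * ∑ g ∈ Finset.range C.b0, aeval (L g) (C.H i l g) = p) := by
  classical
  obtain ⟨R, L, hL⟩ := exists_planes (n := n) (d 0) hE
  have hR : 0 < R := by
    obtain ⟨s, l, hl, hspan, hex⟩ := hL.ex
    have hs : 0 < s := by
      by_contra hs
      obtain rfl : s = 0 := by omega
      have h1 := hspan 1 le_rfl (hd 0)
      have h2 : (X ⟨0, hn⟩ : MvPolynomial (Fin n) k) ∈ homogeneousSubmodule (Fin n) k 1 :=
        isHomogeneous_X k _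
      have h3 := h1 h2
      rw [Set.range_eq_empty, Submodule.span_empty, Submodule.mem_bot] at h3
      exact X_ne_zero _ h3
    obtain ⟨g, -⟩ := hex ⟨0, hs⟩ ⟨0, hs⟩
    exact g.pos
  have hdE : ∀ i, d i ≤ d 0 := fun i => antitone_nat_of_succ_le hanti (Nat.zero_le i)
  have hsys := fun i : ℕ => exists_sys (Ideal.span (Set.range f)) (d i) L
  choose NL H hH using hsys
  let Ln : ℕ → Fin 2 → MvPolynomial (Fin n) k := fun g b => if h : g < R then L ⟨g, h⟩ b else 0
  have hLn : ∀ g : Fin R, Ln g = L g := by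
    intro g
    funext b
    simp [Ln]
  let C : CData k :=
    { n := n
      b0 := R
      b0_pos := hR
      d := d
      d_pos := hd
      NL := NL
      H := fun i l g => if h : l < NL i ∧ g < R then H i ⟨l, h.1⟩ ⟨g, h.2⟩ else 0
      hH := by
        intro i l g
        split_ifs with h
        · exact (hH i).hom _ _
        · exact isHomogeneous_zero _ _ _ }
  have hCH : ∀ i (l : Fin (NL i)) (g : Fin R), C.H i l g = H i l g := by
    intro i l g
    simp [C]
  have hCz : ∀ i l g, ¬ l < NL i → C.H i l g = 0 := by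
    intro i l g h
    simp [C, h]
  have hsum : ∀ i (l : Fin (NL i)), ∑ g ∈ Finset.range C.b0, aeval (Ln g) (C.H i l g) =
      ∑ g, aeval (L g) (H i l g) := by
    intro i l
    rw [show C.b0 = R from rfl, Finset.sum_range]
    refine Finset.sum_congr rfl fun g _ => ?_
    rw [hLn, hCH]
  have hLhom : ∀ g b, (Ln g b).IsHomogeneous 1 := by
    intro g b
    simp only [Ln]
    split_ifs
    · exact hL.lin _ _
    · exact isHomogeneous_zero _ _ _
  have hgood : Good C (σ := Fin n) f Ln :=
    { anti := hanti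
      hf := hf
      hN := hN
      hL := hLhom
      base := by
        intro i hi Ω _ _ _ γ hγ
        have h1 : ∀ l : Fin (NL i), ∑ g : Fin R, aeval (γ g) (H i l g) = 0 := by
          intro l
          have h2 := hγ l l.2
          rw [show C.b0 = R from rfl, Finset.sum_range] at h2
          rw [← h2]
          refine Finset.sum_congr rfl fun g _ => ?_
          rw [hCH]
        obtain ⟨lam, h3, h4⟩ := hL.base_points' (Ω := Ω) (d := fun i => d i) hf (fun i => hd i)
          (hd i) (hdE i) (hH i) (fun g => γ g) h1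
        refine ⟨lam, h3, fun g hg => ?_⟩
        obtain ⟨ε, h5, h6⟩ := h4 ⟨g, hg⟩
        refine ⟨ε, h5, fun b => ?_⟩
        rw [h6 b, hLn ⟨g, hg⟩] }
  refine ⟨C, Ln, rfl, rfl, ind C hgood, hLhom, ?_, ?_⟩
  · intro i l
    by_cases hl : l < NL i
    · have h1 := hsum i ⟨l, hl⟩
      have h2 := (hH i).mem ⟨l, hl⟩
      rw [← h1] at h2
      exact h2
    · simp only [hCz i l _ hl, map_zero, Finset.sum_const_zero]
      exact Ideal.zero_mem _
  · intro i p hp hpI
    obtain ⟨y, hy⟩ := hL.exists_of_mem (hd i) (hdE i) (hH i) hp hpI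
    refine ⟨fun l => if h : l < NL i then y ⟨l, h⟩ else 0, ?_⟩
    rw [← hy, show C.NL i = NL i from rfl, Finset.sum_range]
    refine Finset.sum_congr rfl fun l _ => ?_
    rw [hsum]
    beta_reduce
    rw [dif_pos l.2]

end Vale.Agent.P200.RD
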